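import Mathlib

/-!
Second neighbourhoods in oriented graphs of small codegree and in oriented graphs without a fixed
bipartite subgraph.
-/

namespace Vale.Agent.P038

open Finset

variable {V : Type*} [Fintype V] [DecidableEq V] (D : V → V → Prop) [DecidableRel D]

/-- Out-neighbourhood. -/
def outF (v : V) : Finset V := univ.filter fun u => D v u

/-- Second out-neighbourhood. -/
def secF (v : V) : Finset V :=
  univ.filter fun w => w ≠ v ∧ ¬ D v w ∧ ∃ u, D v u ∧ D u w

variable {D}

lemma outF_subset (hor : ∀ a b, D a b → ¬ D b a) (v : V) :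
    ∀ u ∈ outF D v, outF D u ⊆ outF D v ∪ secF D v := by
  intro u hu w hw
  simp only [outF, mem_filter, mem_univ, true_and] at hu hw
  by_cases h : D v w
  · exact mem_union_left _ (by simp [outF, h])
  · refine mem_union_right _ ?_
    simp only [secF, mem_filter, mem_univ, true_and]
    exact ⟨fun e => hor v u hu (e ▸ hw), h, u, hu, hw⟩

/-- Common neighbours in the underlying graph. -/
def comF (a b : V) : Finset V := univ.filter fun x => (D a x ∨ D x a) ∧ (D b x ∨ D x b)

/-- With all codegrees at most `L`, the out-neighbours of a vertex `v` of least outdegree send at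
most `k L / 2` arcs among themselves and at most `L` to each second neighbour. -/
lemma second_count (hor : ∀ a b, D a b → ¬ D b a) {L : ℕ}
    (hL : ∀ a b : V, a ≠ b → (comF (D := D) a b).card ≤ L)
    (v : V) (hmin : ∀ u, (outF D v).card ≤ (outF D u).card) :
    2 * ((outF D v).card * (outF D v).card) ≤
      (outF D v).card * L + 2 * (L * (secF D v).card) := by
  classical
  set N := outF D v with hN
  set T := secF D v
  have hne : ∀ x ∈ N, v ≠ x := fun x hx e => by
    simp only [hN, outF, mem_filter, mem_univ, true_and] at hx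
    exact hor v x hx (e ▸ e ▸ hx)
  have h1 : N.card * N.card ≤
      (∑ u ∈ N, (N.filter fun x => D u x).card) + ∑ u ∈ N, (T.filter fun x => D u x).card := by
    rw [← sum_add_distrib]
    calc N.card * N.card = ∑ _u ∈ N, N.card := by simp
      _ ≤ _ := sum_le_sum fun u hu => by
          refine (hmin u).trans ((card_le_card ?_).trans (card_union_le _ _))
          intro w hw
          have hD : D u w := by simpa [outF] using hw
          rcases mem_union.1 (outF_subset hor v u hu hw) with h | h
          · exact mem_union_left _ (mem_filter.2 ⟨h, hD⟩)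
          · exact mem_union_right _ (mem_filter.2 ⟨h, hD⟩)
  have h2 : 2 * (∑ u ∈ N, (N.filter fun x => D u x).card) ≤ N.card * L := by
    have hs : ∑ u ∈ N, (N.filter fun x => D u x).card =
        ∑ u ∈ N, (N.filter fun x => D x u).card := by
      simp only [card_filter]; exact sum_comm
    rw [two_mul]
    nth_rewrite 2 [hs]
    rw [← sum_add_distrib]
    refine (sum_le_sum fun u hu => ?_).trans_eq (by simp : ∑ _u ∈ N, L = N.card * L)
    rw [← card_union_of_disjoint (disjoint_filter.2 fun x _ h h' => hor u x h h')]
    refine (card_le_card ?_).trans (hL v u (hne u hu))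
    intro x hx
    simp only [comF, hN, outF, mem_union, mem_filter, mem_univ, true_and] at hx ⊢
    rcases hx with ⟨h, h'⟩ | ⟨h, h'⟩
    · exact ⟨Or.inl h, Or.inl h'⟩
    · exact ⟨Or.inl h, Or.inr h'⟩
  have h3 : ∑ u ∈ N, (T.filter fun x => D u x).card ≤ L * T.card := by
    calc ∑ u ∈ N, (T.filter fun x => D u x).card
        = ∑ w ∈ T, (N.filter fun u => D u w).card := by simp only [card_filter]; exact sum_comm
      _ ≤ ∑ _w ∈ T, L := sum_le_sum fun w hw => by
          have hwv : v ≠ w := fun e => (mem_filter.1 hw).2.1 e.symm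
          refine (card_le_card ?_).trans (hL v w hwv)
          intro x hx
          simp only [comF, hN, outF, mem_filter, mem_univ, true_and] at hx ⊢
          exact ⟨Or.inl hx.1, Or.inr hx.2⟩
      _ = L * T.card := by simp [mul_comm]
  omega

/-- Small codegree against the least outdegree gives a large second neighbourhood. -/
lemma second_codegree (hor : ∀ a b, D a b → ¬ D b a) {K L : ℕ}
    (hL : ∀ a b : V, a ≠ b → (comF (D := D) a b).card ≤ L)
    (v : V) (hmin : ∀ u, (outF D v).card ≤ (outF D u).card)
    (hd : (2 * K + 1) * L ≤ 2 * (outF D v).card ∨ K = 1 ∧ L ≤ 1) :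
    K * (outF D v).card ≤ (secF D v).card := by
  classical
  have hc := second_count hor hL v hmin
  set k := (outF D v).card with hk
  rcases Nat.eq_zero_or_pos k with h0 | hpos
  · simp [h0]
  by_cases hbig : (2 * K + 1) * L ≤ 2 * k
  · by_contra hlt
    push Not at hlt
    rcases Nat.eq_zero_or_pos L with rfl | hLpos
    · nlinarith
    · nlinarith [Nat.mul_le_mul_left L (Nat.succ_le_of_lt hlt), Nat.mul_le_mul_left k hbig]
  obtain ⟨rfl, hL1⟩ := hd.resolve_left hbig
  -- a single out-neighbour
  have hk1 : k = 1 := by omega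
  obtain ⟨u, hu'⟩ : ∃ u, outF D v = {u} := card_eq_one.1 hk1
  obtain ⟨w, hw⟩ := card_pos.1 (lt_of_lt_of_le hpos (hmin u))
  have hvu : u ∈ outF D v := by rw [hu']; exact mem_singleton_self u
  rcases mem_union.1 (outF_subset hor v u hvu hw) with h | h
  · rw [hu', mem_singleton] at h
    have : D u u := by simpa [outF, h] using hw
    exact absurd this (hor u u this)
  · have := card_pos.2 ⟨w, h⟩
    omega

lemma second_kss (hor : ∀ a b, D a b → ¬ D b a) {s K : ℕ} (hs : 2 ≤ s)
    (hfree : ∀ A B : Finset V, A.card = s → B.card = s →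
      ¬ ∀ a ∈ A, ∀ b ∈ B, D a b ∨ D b a)
    (v : V) (hmin : ∀ u, (outF D v).card ≤ (outF D u).card)
    (hbig : s * (2 * K + 4) ^ s < (outF D v).card) :
    K * (outF D v).card ≤ (secF D v).card := by
  classical
  by_contra hc
  set k := (outF D v).card with hk
  have hks : 2 * s ≤ k := by
    have : 2 ≤ (2 * K + 4) ^ s := le_trans (by omega) (Nat.le_self_pow (by omega) _)
    nlinarith
  set U := outF D v ∪ secF D v with hU
  have hUcard : U.card ≤ (K + 1) * k := by
    refine (card_union_le _ _).trans ?_
    rw [Nat.add_mul, one_mul]; omega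
  have hnbr : ∀ u ∈ outF D v, outF D u ⊆ U := outF_subset hor v
  have hcount : k * k.choose s ≤ (s - 1) * U.card.choose s := by
    calc k * k.choose s = ∑ _u ∈ outF D v, k.choose s := by simp [hk]
      _ ≤ ∑ u ∈ outF D v, ((U.powersetCard s).filter fun S => S ⊆ outF D u).card := by
          refine sum_le_sum fun u hu => ?_
          calc k.choose s ≤ ((outF D u).powersetCard s).card := by
                rw [card_powersetCard]; exact Nat.choose_le_choose _ (hmin u)
            _ ≤ _ := card_le_card fun S hS => by
                obtain ⟨h1, h2⟩ := mem_powersetCard.1 hS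
                exact mem_filter.2 ⟨mem_powersetCard.2 ⟨h1.trans (hnbr u hu), h2⟩, h1⟩
      _ = ∑ S ∈ U.powersetCard s, ((outF D v).filter fun u => S ⊆ outF D u).card := by
          simp only [card_filter]; exact sum_comm
      _ ≤ ∑ _S ∈ U.powersetCard s, (s - 1) := by
          refine sum_le_sum fun S hS => ?_
          by_contra hlt
          obtain ⟨A, hA, hAc⟩ := exists_subset_card_eq
            (show s ≤ ((outF D v).filter fun u => S ⊆ outF D u).card by omega)
          refine hfree A S hAc (mem_powersetCard.1 hS).2 fun x hx y hy => Or.inl ?_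
          have := (mem_filter.1 (hA hx)).2 hy
          simpa [outF] using this
      _ = _ := by simp [mul_comm]
  have e1 : k ^ s ≤ 2 ^ s * (s.factorial * k.choose s) := by
    rw [← Nat.descFactorial_eq_factorial_mul_choose]
    calc k ^ s ≤ (2 * (k + 1 - s)) ^ s := Nat.pow_le_pow_left (by omega) _
      _ = 2 ^ s * (k + 1 - s) ^ s := mul_pow _ _ _
      _ ≤ _ := Nat.mul_le_mul_left _ (Nat.pow_sub_le_descFactorial _ _)
  have e2 : s.factorial * U.card.choose s ≤ ((K + 1) * k) ^ s := by
    rw [← Nat.descFactorial_eq_factorial_mul_choose]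
    exact (Nat.descFactorial_le_pow _ _).trans (Nat.pow_le_pow_left hUcard _)
  have e3 : k * k ^ s ≤ s * (2 * K + 4) ^ s * k ^ s := by
    calc k * k ^ s ≤ k * (2 ^ s * (s.factorial * k.choose s)) := Nat.mul_le_mul_left _ e1
      _ = 2 ^ s * s.factorial * (k * k.choose s) := by ring
      _ ≤ 2 ^ s * s.factorial * ((s - 1) * U.card.choose s) := Nat.mul_le_mul_left _ hcount
      _ = 2 ^ s * (s - 1) * (s.factorial * U.card.choose s) := by ring
      _ ≤ 2 ^ s * s * ((K + 2) * k) ^ s := Nat.mul_le_mul (Nat.mul_le_mul_left _ (Nat.sub_le _ _))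
          (e2.trans (Nat.pow_le_pow_left (Nat.mul_le_mul_right _ (by omega)) _))
      _ = _ := by rw [mul_pow, show 2 * K + 4 = 2 * (K + 2) by ring, mul_pow]; ring
  have hk0 : 0 < k ^ s := pow_pos (by omega) s
  have := Nat.le_of_mul_le_mul_right e3 hk0
  omega

end Vale.Agent.P038
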